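import Vale.Agent.P181.O2.H244.Lift
import Vale.Agent.P181.O2.Defs

set_option autoImplicit false

/-!
# P181, O2, (A4): from the rank count on the restricted spaces
-/

open MvPolynomial

namespace Vale.Agent.P181.O2.H244

open Vale.Agent.P181.T4 (HW)
open Vale.Agent.P181.SZ (PK nn PT TI)
open Vale.Agent.P181.SZR4 (vm ren_mem_HW vm_injective coeff_ren)

/-- The columns `none = z`, `some none = v`, `some (some j)` as `true`, `false`, `j`. -/
def eo (l : ℕ) : Option (Option (Fin l)) → Bool ⊕ Fin l
  | none => Sum.inl true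
  | some none => Sum.inl false
  | some (some j) => Sum.inr j

lemma eo_inj (l : ℕ) : Function.Injective (eo l) := by
  intro x y h
  rcases x with _ | _ | x <;> rcases y with _ | _ | y <;> simp [eo] at h ⊢
  exact h

/-- The degrees of the two marked columns. -/
def dB (c : ℕ) : Bool → ℕ := fun b => if b then c else 2

lemma ren_mem_PS {m l a : ℕ} {d : Fin l → ℕ} {mu : Fin m → ℕ}
    {f : MvPolynomial (Fin m × Option (Option (Fin l))) ℂ} (hf : f ∈ PG m (Fin l) d a mu) :
    rename (vm m (eo l)) f ∈ PS m Bool (dB a) {(true, false)} d mu := by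
  obtain ⟨hf1, hf2, hf3, hf4⟩ := hf
  refine ⟨ren_mem_HW (eo_inj l) hf1, fun v hv => ?_, fun e he => ?_, fun p hp => ?_⟩
  · obtain ⟨u, hu, hu1, _⟩ := coeff_ren (eo_inj l) hv
    obtain ⟨h1, h2, h3⟩ := hf2 u hu
    rintro ((_ | _) | j)
    · change ∑ i, v (i, Sum.inl false) = 2
      rw [← h2]
      exact Finset.sum_congr rfl fun i _ => hu1 i (some none)
    · change ∑ i, v (i, Sum.inl true) = a
      rw [← h1]
      exact Finset.sum_congr rfl fun i _ => hu1 i none
    · change ∑ i, v (i, Sum.inr j) = d j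
      rw [← h3 j]
      exact Finset.sum_congr rfl fun i _ => hu1 i (some (some j))
  · conv_rhs => rw [← hf3 e he]
    rw [rename_rename, rename_rename]
    congr 2
    funext q
    obtain ⟨i, _ | _ | j⟩ := q <;> rfl
  · rw [Set.mem_singleton_iff] at hp
    subst hp
    have h5 : ∀ i : Fin m, X (i, Sum.inl true) * pderiv (i, (Sum.inl false : Bool ⊕ Fin l))
        (rename (vm m (eo l)) f) =
        rename (vm m (eo l)) (X (i, none) * pderiv (i, some none) f) := by
      intro i
      have h6 := pderiv_rename (vm_injective (m := m) (eo_inj l)) (i, some none) f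
      rw [map_mul, rename_X, ← h6]
      rfl
    change ∑ i : Fin m, X (i, Sum.inl true) * pderiv (i, (Sum.inl false : Bool ⊕ Fin l))
        (rename (vm m (eo l)) f) = 0
    rw [Finset.sum_congr rfl fun i _ => h5 i, ← map_sum]
    have h7 : ∑ i : Fin m, X (i, none) * pderiv (i, some none) f = 0 := hf4
    rw [h7, map_zero]

/-- The twin of `nn_le_PS`. -/
theorem n2_le_PS {m a : ℕ} {mu : Fin m → ℕ} (k : Multiset ℕ) :
    n2 m a mu k ≤
      Module.finrank ℂ (PS m Bool (dB a) {(true, false)} (fun j => k.toList.get j) mu) := by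
  let L : PG m (Fin k.toList.length) (fun j => k.toList.get j) a mu →ₗ[ℂ]
      PS m Bool (dB a) {(true, false)} (fun j => k.toList.get j) mu :=
    LinearMap.codRestrict _ ((rename (vm m (eo k.toList.length))).toLinearMap ∘ₗ
      (PG m (Fin k.toList.length) (fun j => k.toList.get j) a mu).subtype)
      fun f => ren_mem_PS f.2
  refine LinearMap.finrank_le_finrank_of_injective (f := L) ?_
  intro f g hfg
  have h1 : rename (vm m (eo k.toList.length)) f.1 = rename (vm m (eo k.toList.length)) g.1 :=
    congrArg Subtype.val hfg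
  exact Subtype.ext (rename_injective _ (vm_injective (eo_inj _)) h1)

/-- The rank count on the restricted spaces. -/
def E3G : Prop := ∀ (c h m : ℕ) (mu : Fin m → ℕ), 10 * h ≤ c → 100 ≤ c →
  Module.finrank ℂ (TI c (∑ i, mu i) m mu) +
      Module.finrank ℂ (PR m (h + 1) (3 * h) Unit (fun _ => c + 1) ∅ (c + 1) mu) +
      Module.finrank ℂ (PR m (h + 1) (3 * h) Bool (dB c) {(true, false)} (c + 1) mu) ≤
    Module.finrank ℂ (TI (c + 1) (∑ i, mu i) m mu)

/-- **(A4)** -/
theorem a4_of (hE : E3G) : A4 := by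
  classical
  intro c h m mu hc hc2
  refine le_trans (add_le_add (Nat.add_le_add_left ?_ _) ?_) (hE c h m mu hc hc2)
  · have h1 := lift_one (m := m) (S := h + 1) (B := 3 * h) (t := c + 1) (x := c + 1) (mu := mu)
      (((PT (∑ i, mu i)).filter (LetK h (c + 1))).image fun K => K.erase (c + 1))
      (by omega) (by omega) ?_ (by omega)
    · refine le_trans (le_of_eq ?_) h1
      rw [Finset.sum_image]
      · refine Finset.sum_congr rfl fun K hK => ?_
        rw [Multiset.cons_erase (Finset.mem_filter.1 hK).2.1]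
      · intro K hK K' hK' hKK
        have h2 : K.erase (c + 1) = K'.erase (c + 1) := hKK
        have h3 := (Finset.mem_filter.1 hK).2.1
        have h4 := (Finset.mem_filter.1 hK').2.1
        rw [← Multiset.cons_erase h3, ← Multiset.cons_erase h4, h2]
    · intro k hk
      obtain ⟨K, hK, rfl⟩ := Finset.mem_image.1 hk
      obtain ⟨hK1, hK2, hK3, hK4⟩ := Finset.mem_filter.1 hK
      have h5 : ∀ x ∈ K, 2 ≤ x := (Finset.mem_filter.1 hK1).2
      refine ⟨fun y hy => ⟨h5 y (Multiset.mem_of_mem_erase hy), ?_⟩, ?_⟩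
      · have := hK4 y hy
        omega
      · omega
  · refine le_trans (Finset.sum_le_sum fun k _ => n2_le_PS k) ?_
    refine lift_finset ((PT (∑ i, mu i - (c + 2))).filter (Good h)) (by omega) ?_ (by omega)
    intro k hk
    obtain ⟨hk1, hk2, hk3⟩ := Finset.mem_filter.1 hk
    have h5 : ∀ x ∈ k, 2 ≤ x := (Finset.mem_filter.1 hk1).2
    refine ⟨fun y hy => ⟨h5 y hy, ?_⟩, by omega⟩
    have := hk3 y hy
    omega

end Vale.Agent.P181.O2.H244
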