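import Vale.Agent.P181.DG6.H887.Mark

set_option autoImplicit false

/-!
# P181, O2: the restricted spaces and their lower bound by types

`α` = the marked columns, `Fin t` = the points. Every letter of a type becomes `y + y' - 2 y''`
(three points), so at most `3 * card` points occur in a monomial.
-/

open MvPolynomial

namespace Vale.Agent.P181.O2.H244

open Vale.Agent.P181.T4 (HW evalP evalP_apply)
open Vale.Agent.P181.SZ (PK nn PT)
open Vale.Agent.P181.SZR2 (pos zz)
open Vale.Agent.P181.SZR3 (colD colD_X colD_eq)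
open Vale.Agent.P181.SZR4 (vm ren_mem_HW vm_injective coeff_ren)
open Vale.Agent.P181.DG6.H887

/-- The points which occur in a monomial. -/
def occ {m t : ℕ} {α : Type} (v : Fin m × (α ⊕ Fin t) →₀ ℕ) : Finset (Fin t) :=
  Finset.univ.filter fun j => ∃ i, v (i, Sum.inr j) ≠ 0

/-- Highest weight polynomials in the marked columns `α` (degree `d j` in the column `j`) and `t`
points, symmetric and translation invariant in the points, of degree `< S` in each point, with at
most `B` points in every monomial; `(p.1 · ∂_(p.2)) f = 0` for all `p ∈ rel`. -/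
noncomputable def PR (m S B : ℕ) (α : Type) (d : α → ℕ) (rel : Set (α × α)) [Fintype α] (t : ℕ)
    (mu : Fin m → ℕ) : Submodule ℂ (MvPolynomial (Fin m × (α ⊕ Fin t)) ℂ) where
  carrier := {f | f ∈ HW m (α ⊕ Fin t) mu ∧
    (∀ v, coeff v f ≠ 0 → (∀ j : α, ∑ i, v (i, Sum.inl j) = d j) ∧
      (∀ j : Fin t, ∑ i, v (i, Sum.inr j) < S) ∧ (occ v).card ≤ B) ∧
    (∀ s : Equiv.Perm (Fin t),
      rename (fun p : Fin m × (α ⊕ Fin t) => (p.1, Sum.map id s p.2)) f = f) ∧
    (∀ i, ∑ j : Fin t, pderiv (i, (Sum.inr j : α ⊕ Fin t)) f = 0) ∧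
    ∀ p ∈ rel, ∑ i, X (i, Sum.inl p.1) * pderiv (i, (Sum.inl p.2 : α ⊕ Fin t)) f = 0}
  zero_mem' := ⟨zero_mem _, fun v hv => absurd (coeff_zero v) hv, fun s => map_zero _,
    fun i => Finset.sum_eq_zero fun j _ => map_zero _,
    fun p _ => Finset.sum_eq_zero fun i _ => by rw [map_zero, mul_zero]⟩
  add_mem' := by
    rintro f g ⟨hf1, hf2, hf3, hf4, hf5⟩ ⟨hg1, hg2, hg3, hg4, hg5⟩
    refine ⟨add_mem hf1 hg1, fun v hv => ?_, fun s => by rw [map_add, hf3 s, hg3 s],
      fun i => ?_, fun p hp => ?_⟩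
    · rw [coeff_add] at hv
      by_cases h : coeff v f = 0
      · rw [h, zero_add] at hv
        exact hg2 v hv
      · exact hf2 v h
    · have h : ∑ j : Fin t, pderiv (i, (Sum.inr j : α ⊕ Fin t)) (f + g) =
          ∑ j : Fin t, pderiv (i, (Sum.inr j : α ⊕ Fin t)) f +
            ∑ j : Fin t, pderiv (i, (Sum.inr j : α ⊕ Fin t)) g := by
        rw [← Finset.sum_add_distrib]
        exact Finset.sum_congr rfl fun j _ => map_add _ _ _
      rw [h, hf4 i, hg4 i, add_zero]
    · have h : ∑ i, X (i, Sum.inl p.1) * pderiv (i, (Sum.inl p.2 : α ⊕ Fin t)) (f + g) =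
          ∑ i, X (i, Sum.inl p.1) * pderiv (i, (Sum.inl p.2 : α ⊕ Fin t)) f +
            ∑ i, X (i, Sum.inl p.1) * pderiv (i, (Sum.inl p.2 : α ⊕ Fin t)) g := by
        rw [← Finset.sum_add_distrib]
        exact Finset.sum_congr rfl fun i _ => by rw [map_add, mul_add]
      rw [h, hf5 p hp, hg5 p hp, add_zero]
  smul_mem' := by
    rintro c f ⟨hf1, hf2, hf3, hf4, hf5⟩
    refine ⟨Submodule.smul_mem _ c hf1, fun v hv => ?_, fun s => ?_, fun i => ?_, fun p hp => ?_⟩
    · rw [coeff_smul, smul_eq_mul] at hv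
      exact hf2 v (right_ne_zero_of_mul hv)
    · rw [map_smul, hf3 s]
    · have h : ∑ j : Fin t, pderiv (i, (Sum.inr j : α ⊕ Fin t)) (c • f) =
          c • ∑ j : Fin t, pderiv (i, (Sum.inr j : α ⊕ Fin t)) f := by
        rw [Finset.smul_sum]
        exact Finset.sum_congr rfl fun j _ => Derivation.map_smul _ _ _
      rw [h, hf4 i, smul_zero]
    · have h : ∑ i, X (i, Sum.inl p.1) * pderiv (i, (Sum.inl p.2 : α ⊕ Fin t)) (c • f) =
          c • ∑ i, X (i, Sum.inl p.1) * pderiv (i, (Sum.inl p.2 : α ⊕ Fin t)) f := by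
        rw [Finset.smul_sum]
        exact Finset.sum_congr rfl fun i _ => by
          rw [Derivation.map_smul, mul_smul_comm]
      rw [h, hf5 p hp, smul_zero]

lemma mem_PR {m S B : ℕ} {α : Type} {d : α → ℕ} {rel : Set (α × α)} [Fintype α] {t : ℕ}
    {mu : Fin m → ℕ} {f : MvPolynomial (Fin m × (α ⊕ Fin t)) ℂ} :
    f ∈ PR m S B α d rel t mu ↔ f ∈ HW m (α ⊕ Fin t) mu ∧
    (∀ v, coeff v f ≠ 0 → (∀ j : α, ∑ i, v (i, Sum.inl j) = d j) ∧
      (∀ j : Fin t, ∑ i, v (i, Sum.inr j) < S) ∧ (occ v).card ≤ B) ∧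
    (∀ s : Equiv.Perm (Fin t),
      rename (fun p : Fin m × (α ⊕ Fin t) => (p.1, Sum.map id s p.2)) f = f) ∧
    (∀ i, ∑ j : Fin t, pderiv (i, (Sum.inr j : α ⊕ Fin t)) f = 0) ∧
    ∀ p ∈ rel, ∑ i, X (i, Sum.inl p.1) * pderiv (i, (Sum.inl p.2 : α ⊕ Fin t)) f = 0 := Iff.rfl

instance finiteDimensional_PR (m S B : ℕ) (α : Type) (d : α → ℕ) (rel : Set (α × α)) [Fintype α]
    (t : ℕ) (mu : Fin m → ℕ) : FiniteDimensional ℂ (PR m S B α d rel t mu) :=
  Submodule.finiteDimensional_of_le (S₂ := HW m (α ⊕ Fin t) mu) fun _ h => h.1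

/-- Highest weight polynomials of the type `k` in the marked columns `α` and the letters `Fin l`,
invariant under the permutations of the letters which preserve `k`;
`(p.1 · ∂_(p.2)) f = 0` for all `p ∈ rel`. -/
noncomputable def PS (m : ℕ) (α : Type) (d : α → ℕ) (rel : Set (α × α)) [Fintype α] {l : ℕ}
    (k : Fin l → ℕ) (mu : Fin m → ℕ) : Submodule ℂ (MvPolynomial (Fin m × (α ⊕ Fin l)) ℂ) where
  carrier := {f | f ∈ HW m (α ⊕ Fin l) mu ∧
    (∀ v, coeff v f ≠ 0 → ∀ j, ∑ i, v (i, j) = Sum.elim d k j) ∧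
    (∀ e : Equiv.Perm (Fin l), (∀ j, k (e j) = k j) →
      rename (fun p : Fin m × (α ⊕ Fin l) => (p.1, (Equiv.sumCongr (Equiv.refl α) e) p.2)) f = f) ∧
    ∀ p ∈ rel, ∑ i, X (i, Sum.inl p.1) * pderiv (i, (Sum.inl p.2 : α ⊕ Fin l)) f = 0}
  zero_mem' := ⟨zero_mem _, fun v hv => absurd (coeff_zero v) hv, fun s _ => map_zero _,
    fun p _ => Finset.sum_eq_zero fun i _ => by rw [map_zero, mul_zero]⟩
  add_mem' := by
    rintro f g ⟨hf1, hf2, hf3, hf5⟩ ⟨hg1, hg2, hg3, hg5⟩
    refine ⟨add_mem hf1 hg1, fun v hv => ?_, fun s hs => by rw [map_add, hf3 s hs, hg3 s hs],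
      fun p hp => ?_⟩
    · rw [coeff_add] at hv
      by_cases h : coeff v f = 0
      · rw [h, zero_add] at hv
        exact hg2 v hv
      · exact hf2 v h
    · have h : ∑ i, X (i, Sum.inl p.1) * pderiv (i, (Sum.inl p.2 : α ⊕ Fin l)) (f + g) =
          ∑ i, X (i, Sum.inl p.1) * pderiv (i, (Sum.inl p.2 : α ⊕ Fin l)) f +
            ∑ i, X (i, Sum.inl p.1) * pderiv (i, (Sum.inl p.2 : α ⊕ Fin l)) g := by
        rw [← Finset.sum_add_distrib]
        exact Finset.sum_congr rfl fun i _ => by rw [map_add, mul_add]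
      rw [h, hf5 p hp, hg5 p hp, add_zero]
  smul_mem' := by
    rintro c f ⟨hf1, hf2, hf3, hf5⟩
    refine ⟨Submodule.smul_mem _ c hf1, fun v hv => ?_, fun s hs => ?_, fun p hp => ?_⟩
    · rw [coeff_smul, smul_eq_mul] at hv
      exact hf2 v (right_ne_zero_of_mul hv)
    · rw [map_smul, hf3 s hs]
    · have h : ∑ i, X (i, Sum.inl p.1) * pderiv (i, (Sum.inl p.2 : α ⊕ Fin l)) (c • f) =
          c • ∑ i, X (i, Sum.inl p.1) * pderiv (i, (Sum.inl p.2 : α ⊕ Fin l)) f := by
        rw [Finset.smul_sum]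
        exact Finset.sum_congr rfl fun i _ => by
          rw [Derivation.map_smul, mul_smul_comm]
      rw [h, hf5 p hp, smul_zero]

instance finiteDimensional_PS (m : ℕ) (α : Type) (d : α → ℕ) (rel : Set (α × α)) [Fintype α]
    {l : ℕ} (k : Fin l → ℕ) (mu : Fin m → ℕ) : FiniteDimensional ℂ (PS m α d rel k mu) :=
  Submodule.finiteDimensional_of_le (S₂ := HW m (α ⊕ Fin l) mu) fun _ h => h.1

section

variable {m l t : ℕ} {α : Type} [Fintype α] [DecidableEq α]

/-- The relations survive the substitution. -/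
lemma rel_sb (h : 3 * l ≤ t) (p : α × α) {f : MvPolynomial (Fin m × (α ⊕ Fin l)) ℂ}
    (hf : ∑ i, X (i, Sum.inl p.1) * pderiv (i, (Sum.inl p.2 : α ⊕ Fin l)) f = 0) :
    ∑ i, X (i, Sum.inl p.1) * pderiv (i, (Sum.inl p.2 : α ⊕ Fin t)) (sb m α h f) = 0 := by
  rw [← colD_eq] at hf ⊢
  have key := der_comm (sb m α h) (colD (Sum.inl p.1) (Sum.inl p.2))
    (colD (Sum.inl p.1) (Sum.inl p.2)) ?_ f
  · rw [key, hf, map_zero]
  · rintro ⟨i, j⟩
    rw [colD_X, sb, lsub_X, map_sum]
    have h2 : ∀ c : α ⊕ Fin t, (colD (Sum.inl p.1) (Sum.inl p.2) :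
        Derivation ℂ (MvPolynomial (Fin m × (α ⊕ Fin t)) ℂ) _) (C (A3 α h j c) * X (i, c)) =
        if c = Sum.inl p.2 then C (A3 α h j c) * X (i, Sum.inl p.1) else 0 := by
      intro c
      rw [Derivation.leibniz, colD_X]
      have h3 : (colD (Sum.inl p.1) (Sum.inl p.2) :
        Derivation ℂ (MvPolynomial (Fin m × (α ⊕ Fin t)) ℂ) _) (C (A3 α h j c)) = 0 :=
        Derivation.map_algebraMap _ _
      rw [h3, smul_zero, add_zero, smul_eq_mul]
      split_ifs <;> simp
    rw [Finset.sum_congr rfl fun c _ => h2 c, Finset.sum_ite_eq' Finset.univ (Sum.inl p.2),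
      if_pos (Finset.mem_univ _)]
    obtain a | c := j
    · by_cases ha : a = p.2
      · subst ha
        rw [if_pos rfl, lsub_X, Fintype.sum_sum_type]
        change C (if p.2 = p.2 then (1 : ℂ) else 0) * X (i, Sum.inl p.1) =
          ∑ a', C (if p.1 = a' then (1 : ℂ) else 0) * X (i, Sum.inl a') +
            ∑ c : Fin t, C (0 : ℂ) * X (i, Sum.inr c)
        simp [ite_mul, apply_ite]
      · rw [if_neg (by simpa using ha), map_zero]
        change C (if a = p.2 then (1 : ℂ) else 0) * X (i, Sum.inl p.1) = 0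
        rw [if_neg ha, C_0, zero_mul]
    · rw [if_neg (by simp), map_zero]
      change C (0 : ℂ) * X (i, Sum.inl p.1) = 0
      rw [C_0, zero_mul]

/-- Only the first `3 * l` points occur. -/
lemma far_sb (h : 3 * l ≤ t) {f : MvPolynomial (Fin m × (α ⊕ Fin l)) ℂ}
    (v : Fin m × (α ⊕ Fin t) →₀ ℕ) (hv : coeff v (sb m α h f) ≠ 0) (c0 : Fin t)
    (hc : 3 * l ≤ (c0 : ℕ)) : ∑ i, v (i, Sum.inr c0) = 0 := by
  classical
  have h1 := lsub_deg (A3 α h) (fun _ => False) (fun c => c = Sum.inr c0) (n := 0) ?_ ?_ v hv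
  · rw [Finset.sum_ite_eq' Finset.univ (Sum.inr c0 : α ⊕ Fin t)] at h1
    simpa using h1
  · intro j c hjc
    constructor
    · rintro rfl
      obtain a | j := j
      · exact hjc rfl
      · have h2 := A3_div h hjc
        have h3 := j.2
        omega
    · intro h0
      exact h0.elim
  · intro u _
    simp

/-- **The polynomial of one type.** -/
theorem sy_sb_memR {S B : ℕ} (hS : 1 ≤ S) (h : 3 * l ≤ t) (hB : 3 * l ≤ B) {d : α → ℕ}
    {rel : Set (α × α)} {k : Fin l → ℕ} (hk : ∀ j, k j < S) {mu : Fin m → ℕ}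
    {f : MvPolynomial (Fin m × (α ⊕ Fin l)) ℂ} (hf : f ∈ PS m α d rel k mu) :
    sy m α t (sb m α h f) ∈ PR m S B α d rel t mu := by
  classical
  obtain ⟨hf1, hf2, _, hf5⟩ := hf
  have hdeg : ∀ v, coeff v (sb m α h f) ≠ 0 → (∀ j : α, ∑ i, v (i, Sum.inl j) = d j) ∧
      ∀ j : Fin t, ∑ i, v (i, Sum.inr j) < S := by
    intro v hv
    constructor
    · intro a
      have h1 := lsub_deg (A3 α h) (fun j => j = Sum.inl a) (fun c => c = Sum.inl a)
        (n := d a) ?_ ?_ v hv
      · rw [Finset.sum_ite_eq' Finset.univ (Sum.inl a : α ⊕ Fin t)] at h1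
        simpa using h1
      · rintro (j | j) (c | c) hc
        · have hjc : j = c := by
            by_contra hne
            exact hc (if_neg hne)
          simp only [Sum.inl.injEq, hjc]
        · exact absurd rfl hc
        · exact absurd rfl hc
        · simp
      · intro u hu
        rw [Finset.sum_ite_eq' Finset.univ (Sum.inl a : α ⊕ Fin l)]
        simpa using hf2 u hu (Sum.inl a)
    · intro c
      have h1 := lsub_deg (A3 α h)
        (fun j => ∃ q : Fin l, j = Sum.inr q ∧ (q : ℕ) = (c : ℕ) / 3)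
        (fun c' => ∃ q : Fin t, c' = Sum.inr q ∧ (q : ℕ) / 3 = (c : ℕ) / 3)
        (n := if hc : (c : ℕ) / 3 < l then k ⟨(c : ℕ) / 3, hc⟩ else 0) ?_ ?_ v hv
      · have h2 : (if hc : (c : ℕ) / 3 < l then k ⟨(c : ℕ) / 3, hc⟩ else 0) < S := by
          split_ifs
          · exact hk _
          · omega
        rw [← h1] at h2
        refine lt_of_le_of_lt ?_ h2
        have h3 := Finset.single_le_sum (f := fun c' : α ⊕ Fin t =>
          if ∃ q : Fin t, c' = Sum.inr q ∧ (q : ℕ) / 3 = (c : ℕ) / 3 then ∑ i, v (i, c') else 0)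
          (fun _ _ => Nat.zero_le _) (Finset.mem_univ (Sum.inr c))
        rw [if_pos ⟨c, rfl, rfl⟩] at h3
        exact h3
      · rintro (j | j) (c' | c') hc
        · simp
        · exact absurd rfl hc
        · exact absurd rfl hc
        · have h2 := A3_div h hc
          constructor
          · rintro ⟨q, hq, hq'⟩
            rw [Sum.inr.injEq] at hq
            subst hq
            exact ⟨j, rfl, by omega⟩
          · rintro ⟨q, hq, hq'⟩
            rw [Sum.inr.injEq] at hq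
            subst hq
            exact ⟨c', rfl, by omega⟩
      · intro u hu
        by_cases hc : (c : ℕ) / 3 < l
        · rw [dif_pos hc, Finset.sum_eq_single (Sum.inr ⟨(c : ℕ) / 3, hc⟩)]
          · rw [if_pos ⟨_, rfl, rfl⟩]
            exact hf2 u hu (Sum.inr _)
          · intro j _ hj
            rw [if_neg]
            rintro ⟨q, hq, hq'⟩
            apply hj
            rw [hq]
            congr 1
            exact Fin.ext hq'
          · intro h'
            exact absurd (Finset.mem_univ _) h'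
        · rw [dif_neg hc]
          refine Finset.sum_eq_zero fun j _ => ?_
          rw [if_neg]
          rintro ⟨q, hq, hq'⟩
          have := q.2
          omega
  have hTI : ∀ i, ∑ j : Fin t, pderiv (i, (Sum.inr j : α ⊕ Fin t)) (sb m α h f) = 0 :=
    fun i => tr_lsub (A3 α h) (fun c : Fin t => Sum.inr c) (A3_sum h) i f
  have hHW : sb m α h f ∈ HW m (α ⊕ Fin t) mu := lsub_mem_HW _ hf1
  rw [mem_PR, sy_apply]
  refine ⟨Submodule.sum_mem _ fun s _ => ren_mem_HW (map_inj' s) hHW, ?_, ?_, ?_, ?_⟩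
  · intro v hv
    rw [coeff_sum] at hv
    obtain ⟨s, _, hs⟩ := Finset.exists_ne_zero_of_sum_ne_zero hv
    obtain ⟨u, hu, hu1, _⟩ := coeff_ren (map_inj' s) hs
    obtain ⟨h5, h6⟩ := hdeg u hu
    refine ⟨fun j => ?_, fun j => ?_, ?_⟩
    · rw [← h5 j]
      exact Finset.sum_congr rfl fun i _ => hu1 i (Sum.inl j)
    · obtain ⟨k', rfl⟩ := s.surjective j
      have h7 : ∑ i, v (i, Sum.inr (s k')) = ∑ i, u (i, Sum.inr k') :=
        Finset.sum_congr rfl fun i _ => hu1 i (Sum.inr k')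
      rw [h7]
      exact h6 k'
    · have h8 : occ v ⊆ (Finset.univ.filter fun c : Fin t => (c : ℕ) < 3 * l).map
          s.toEmbedding := by
        intro j hj
        obtain ⟨i, hi⟩ := (Finset.mem_filter.1 hj).2
        obtain ⟨k', rfl⟩ := s.surjective j
        refine Finset.mem_map.2 ⟨k', Finset.mem_filter.2 ⟨Finset.mem_univ _, ?_⟩, rfl⟩
        by_contra hc
        have h9 := far_sb h u hu k' (not_lt.1 hc)
        rw [Finset.sum_eq_zero_iff] at h9
        exact hi ((hu1 i (Sum.inr k')).trans (h9 i (Finset.mem_univ _)))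
      refine le_trans (Finset.card_le_card h8) ?_
      rw [Finset.card_map]
      refine le_trans ?_ hB
      have h10 : ((Finset.univ.filter fun c : Fin t => (c : ℕ) < 3 * l).map
          Fin.valEmbedding) ⊆ Finset.range (3 * l) := by
        intro x hx
        obtain ⟨c, hc, rfl⟩ := Finset.mem_map.1 hx
        exact Finset.mem_range.2 (Finset.mem_filter.1 hc).2
      have h11 := Finset.card_le_card h10
      rwa [Finset.card_map, Finset.card_range] at h11
  · intro s
    change rename (vm m (Sum.map id s)) _ = _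
    rw [map_sum]
    have h5 : ∀ s' : Equiv.Perm (Fin t), rename (vm m (Sum.map (id : α → α) s))
        (rename (vm m (Sum.map (id : α → α) s')) (sb m α h f)) =
        rename (vm m (Sum.map (id : α → α) (s * s' : Equiv.Perm (Fin t)))) (sb m α h f) := by
      intro s'
      rw [rename_rename]
      congr 2
      funext p
      obtain ⟨i, j | j⟩ := p <;> rfl
    rw [Finset.sum_congr rfl fun s' _ => h5 s']
    exact Fintype.sum_equiv (Equiv.mulLeft s) _ _ fun s' => rfl
  · intro i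
    have h5 : ∀ j : Fin t, pderiv (i, (Sum.inr j : α ⊕ Fin t))
        (∑ s : Equiv.Perm (Fin t), rename (vm m (Sum.map (id : α → α) s)) (sb m α h f)) =
        ∑ s : Equiv.Perm (Fin t), rename (vm m (Sum.map (id : α → α) s))
          (pderiv (i, (Sum.inr (s.symm j) : α ⊕ Fin t)) (sb m α h f)) := by
      intro j
      rw [map_sum]
      refine Finset.sum_congr rfl fun s _ => ?_
      have h6 := pderiv_rename (vm_injective (m := m) (map_inj' (α := α) s))
        (i, (Sum.inr (s.symm j) : α ⊕ Fin t)) (sb m α h f)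
      rw [← h6]
      change _ = pderiv (i, Sum.inr (s (s.symm j))) _
      rw [Equiv.apply_symm_apply]
    rw [Finset.sum_congr rfl fun j _ => h5 j, Finset.sum_comm]
    refine Finset.sum_eq_zero fun s _ => ?_
    rw [← map_sum]
    have h7 : ∑ j : Fin t, pderiv (i, (Sum.inr (s.symm j) : α ⊕ Fin t)) (sb m α h f) =
        ∑ j : Fin t, pderiv (i, (Sum.inr j : α ⊕ Fin t)) (sb m α h f) :=
      Equiv.sum_comp s.symm (fun j => pderiv (i, (Sum.inr j : α ⊕ Fin t)) (sb m α h f))
    rw [h7, hTI i, map_zero]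
  · intro p hp
    have h5 : ∀ i : Fin m, X (i, Sum.inl p.1) * pderiv (i, (Sum.inl p.2 : α ⊕ Fin t))
        (∑ s : Equiv.Perm (Fin t), rename (vm m (Sum.map (id : α → α) s)) (sb m α h f)) =
        ∑ s : Equiv.Perm (Fin t), rename (vm m (Sum.map (id : α → α) s))
          (X (i, Sum.inl p.1) * pderiv (i, (Sum.inl p.2 : α ⊕ Fin t)) (sb m α h f)) := by
      intro i
      rw [map_sum, Finset.mul_sum]
      refine Finset.sum_congr rfl fun s _ => ?_
      have h6 := pderiv_rename (vm_injective (m := m) (map_inj' (α := α) s))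
        (i, (Sum.inl p.2 : α ⊕ Fin t)) (sb m α h f)
      rw [map_mul, rename_X, ← h6]
      rfl
    rw [Finset.sum_congr rfl fun i _ => h5 i, Finset.sum_comm]
    refine Finset.sum_eq_zero fun s _ => ?_
    rw [← map_sum, rel_sb h p (hf5 p hp), map_zero]

end

/-- Independence, any marked columns. -/
lemma ker_zeroA {ι : Type} [Fintype ι] {m t : ℕ} {α : Type} [Fintype α] [DecidableEq α]
    {d : α → ℕ} {rel : Set (α × α)} {mu : Fin m → ℕ} (ty : ι → Multiset ℕ)
    (hty : Function.Injective ty) (h2 : ∀ i, ∀ y ∈ ty i, 2 ≤ y)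
    (hh : ∀ i, 3 * (ty i).toList.length ≤ t)
    (f : ∀ i, MvPolynomial (Fin m × (α ⊕ Fin (ty i).toList.length)) ℂ)
    (hf : ∀ i, f i ∈ PS m α d rel (fun j => (ty i).toList.get j) mu)
    (h0 : ∑ i, sy m α t (sb m α (hh i) (f i)) = 0) : ∀ i, f i = 0 := by
  have h3 : ∀ (Y : α → Fin m → ℂ) (i : ι), pe Y (f i) = 0 := by
    intro Y
    refine indep' (b := t) ty hty h2 hh _ (fun i => col_pe Y (hf i).2.1) ?_ ?_
    · intro i e he
      exact sym_pe Y e ((hf i).2.2.1 e he)
    · intro w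
      have h4 := congrArg (eval (pt Y w)) h0
      rw [map_sum, map_zero] at h4
      rw [← h4]
      refine Finset.sum_congr rfl fun i _ => ?_
      rw [eval_sy_sb]
      exact Finset.sum_congr rfl fun s _ => evalP_pe Y _ _
  intro i
  apply MvPolynomial.funext
  intro p
  have h4 := evalP_pe (fun a r => p (r, Sum.inl a)) (f i) (fun j r => p (r, Sum.inr j))
  rw [h3, map_zero, Pi.zero_apply] at h4
  have h5 : pt (fun a r => p (r, Sum.inl a)) (fun j r => p (r, Sum.inr j)) = p := by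
    funext q
    obtain ⟨r, j | j⟩ := q <;> rfl
  rw [h5] at h4
  rw [← h4]
  exact (map_zero _).symm

/-- The map of one type. -/
noncomputable def Lr {m S B t : ℕ} {α : Type} [Fintype α] [DecidableEq α] {d : α → ℕ}
    {rel : Set (α × α)} {mu : Fin m → ℕ} {l : ℕ} {k : Fin l → ℕ} (hS : 1 ≤ S) (h : 3 * l ≤ t)
    (hB : 3 * l ≤ B) (hk : ∀ j, k j < S) :
    PS m α d rel k mu →ₗ[ℂ] PR m S B α d rel t mu :=
  LinearMap.codRestrict _ ((sy m α t) ∘ₗ (sb m α h).toLinearMap ∘ₗ
    (PS m α d rel k mu).subtype) fun f => sy_sb_memR hS h hB hk f.2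

/-- **[LIFT]** for a family of types. -/
theorem lift_gen {ι : Type} [Fintype ι] {m S B t : ℕ} {α : Type} [Fintype α] {d : α → ℕ}
    {rel : Set (α × α)} {mu : Fin m → ℕ} (ty : ι → Multiset ℕ)
    (hty : Function.Injective ty) (h2 : ∀ i, ∀ y ∈ ty i, 2 ≤ y) (hS : 1 ≤ S)
    (hk : ∀ i, ∀ y ∈ ty i, y < S) (hh : ∀ i, 3 * (ty i).toList.length ≤ t)
    (hB : ∀ i, 3 * (ty i).toList.length ≤ B) :
    ∑ i, Module.finrank ℂ (PS m α d rel (fun j => (ty i).toList.get j) mu) ≤
      Module.finrank ℂ (PR m S B α d rel t mu) := by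
  classical
  let L : (∀ i, PS m α d rel (fun j => (ty i).toList.get j) mu) →ₗ[ℂ] PR m S B α d rel t mu :=
    ∑ i, (Lr hS (hh i) (hB i) (fun _ => hk i _ (Multiset.mem_toList.1 (List.get_mem _ _)))) ∘ₗ
      LinearMap.proj i
  have hL : Function.Injective L := by
    rw [← LinearMap.ker_eq_bot, LinearMap.ker_eq_bot']
    intro F hF
    have h1 : ∑ i, sy m α t (sb m α (hh i) (F i).1) = 0 := by
      have h2 := congrArg (Submodule.subtype (PR m S B α d rel t mu)) hF
      rw [LinearMap.sum_apply, map_sum, map_zero] at h2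
      exact h2
    have h3 := ker_zeroA ty hty h2 hh (fun i => (F i).1) (fun i => (F i).2) h1
    funext i
    exact Subtype.ext (h3 i)
  have h9 := LinearMap.finrank_le_finrank_of_injective hL
  rwa [Module.finrank_pi_fintype] at h9

/-- **[LIFT]** for a finite set of types. -/
theorem lift_finset {m S B t : ℕ} {α : Type} [Fintype α] {d : α → ℕ} {rel : Set (α × α)}
    {mu : Fin m → ℕ} (T : Finset (Multiset ℕ)) (hS : 1 ≤ S)
    (hT : ∀ k ∈ T, (∀ y ∈ k, 2 ≤ y ∧ y < S) ∧ 3 * Multiset.card k ≤ B) (hBt : B ≤ t) :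
    ∑ k ∈ T, Module.finrank ℂ (PS m α d rel (fun j => k.toList.get j) mu) ≤
      Module.finrank ℂ (PR m S B α d rel t mu) := by
  have h9 := lift_gen (m := m) (S := S) (B := B) (t := t) (d := d) (rel := rel) (mu := mu)
    (ι := {k // k ∈ T}) Subtype.val Subtype.val_injective
    (fun k y hy => ((hT k.1 k.2).1 y hy).1) hS (fun k y hy => ((hT k.1 k.2).1 y hy).2)
    (fun k => by rw [Multiset.length_toList]; exact (hT k.1 k.2).2.trans hBt)
    (fun k => by rw [Multiset.length_toList]; exact (hT k.1 k.2).2)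
  refine le_trans (le_of_eq ?_) h9
  exact (Finset.sum_coe_sort T
    (fun k => Module.finrank ℂ (PS m α d rel (fun j => k.toList.get j) mu))).symm

/-- One marked column: the types `x ::ₘ k`. -/
theorem nn_le_PS {m x : ℕ} {mu : Fin m → ℕ} {k : Multiset ℕ} (hx : 0 < x)
    (h2 : ∀ y ∈ k, 2 ≤ y) :
    nn m mu (x ::ₘ k) ≤
      Module.finrank ℂ (PS m Unit (fun _ => x) ∅ (fun j => k.toList.get j) mu) := by
  rw [← finrank_dk mu hx h2]
  refine Submodule.finrank_mono ?_
  rintro f ⟨hf1, hf2, hf3⟩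
  refine ⟨hf1, hf2, fun e he => ?_, fun p hp => absurd hp (Set.notMem_empty p)⟩
  refine hf3 _ fun j => ?_
  obtain j | j := j
  · rfl
  · exact he j

/-- **[LIFT], `z` alone.** -/
theorem lift_one {m S B t x : ℕ} {mu : Fin m → ℕ} (T : Finset (Multiset ℕ)) (hS : 1 ≤ S)
    (hx : 0 < x) (hT : ∀ k ∈ T, (∀ y ∈ k, 2 ≤ y ∧ y < S) ∧ 3 * Multiset.card k ≤ B)
    (hBt : B ≤ t) :
    ∑ k ∈ T, nn m mu (x ::ₘ k) ≤ Module.finrank ℂ (PR m S B Unit (fun _ => x) ∅ t mu) :=
  le_trans (Finset.sum_le_sum fun k hk => nn_le_PS hx fun y hy => ((hT k hk).1 y hy).1)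
    (lift_finset T hS hT hBt)

end Vale.Agent.P181.O2.H244
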